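import Vale.Agent.P267.H857.Betti

/-!
# P267 BRIDGE-ALT (9): Betti numbers in terms of `OneF`, `TwoF`
-/

open scoped Manifold ContDiff ComplexConjugate Topology
open Set Filter Matrix

noncomputable section

namespace Vale.Agent.P267.H857

open Vale.Agent.P267.FL

variable {X : Type*} [TopologicalSpace X] [ChartedSpace C2 X]

/-- the function of a zero-form -/
def toFun0 (a : CForm 0 X) : X → ℂ := fun x => (a x : C2 [⋀^Fin 0]→L[ℝ] ℂ) ![]

@[simp] theorem toFun0_ofFun (s : X → ℂ) : toFun0 (ofFun s) = s := rfl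

@[simp] theorem ofFun_toFun0 (a : CForm 0 X) : ofFun (toFun0 a) = a := by
  funext x
  ext v
  have : v = ![] := Subsingleton.elim _ _
  subst this
  rfl

theorem alt1_add (c a c' a' : Fin 2 → ℂ) : alt1 (c + c') (a + a') = alt1 c a + alt1 c' a' := by
  ext v
  rw [ContinuousAlternatingMap.add_apply, alt1_apply, alt1_apply, alt1_apply]
  simp only [Pi.add_apply]
  ring

theorem alt1_smul (r : ℂ) (c a : Fin 2 → ℂ) : alt1 (r • c) (r • a) = r • alt1 c a := by
  ext v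
  rw [ContinuousAlternatingMap.smul_apply, alt1_apply, alt1_apply]
  simp only [Pi.smul_apply, smul_eq_mul]
  ring

theorem alt2_add (a b a' b' : ℂ) (g g' : Matrix (Fin 2) (Fin 2) ℂ) :
    alt2 (a + a') (g + g') (b + b') = alt2 a g b + alt2 a' g' b' := by
  ext v
  rw [ContinuousAlternatingMap.add_apply, alt2_apply, alt2_apply, alt2_apply]
  simp only [Matrix.add_apply]
  ring

theorem alt2_smul (r a b : ℂ) (g : Matrix (Fin 2) (Fin 2) ℂ) :
    alt2 (r • a) (r • g) (r • b) = r • alt2 a g b := by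
  ext v
  rw [ContinuousAlternatingMap.smul_apply, alt2_apply, alt2_apply]
  simp only [Matrix.smul_apply, smul_eq_mul]
  ring

variable (X) in
/-- one-forms as alternating forms -/
def ofOneL : OneF X ≃ₗ[ℂ] CForm 1 X where
  toFun := ofOne
  map_add' A B := by
    funext x
    exact alt1_add _ _ _ _
  map_smul' c A := by
    funext x
    exact alt1_smul _ _ _
  invFun := toOne
  left_inv := toOne_ofOne
  right_inv := ofOne_toOne

variable (X) in
/-- two-forms as alternating forms -/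
def ofTwoL : TwoF X ≃ₗ[ℂ] CForm 2 X where
  toFun := ofTwo
  map_add' A B := by
    funext x
    exact alt2_add _ _ _ _ _ _
  map_smul' c A := by
    funext x
    exact alt2_smul _ _ _ _
  invFun := toTwo
  left_inv := toTwo_ofTwo
  right_inv := ofTwo_toTwo

theorem ofOneL_apply (A : OneF X) : ofOneL X A = ofOne A := rfl
theorem ofTwoL_apply (A : TwoF X) : ofTwoL X A = ofTwo A := rfl

theorem ofTwo_zero : (ofTwo 0 : CForm 2 X) = 0 := (ofTwoL X).map_zero

variable (X) in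
/-- closed smooth one-forms -/
def Z1F : Submodule ℂ (OneF X) := (ZC X 1).comap (ofOneL X : OneF X →ₗ[ℂ] CForm 1 X)
variable (X) in
/-- exact one-forms -/
def B1F : Submodule ℂ (OneF X) := (BC X 0).comap (ofOneL X : OneF X →ₗ[ℂ] CForm 1 X)
variable (X) in
/-- closed smooth two-forms -/
def Z2F : Submodule ℂ (TwoF X) := (ZC X 2).comap (ofTwoL X : TwoF X →ₗ[ℂ] CForm 2 X)
variable (X) in
/-- exact two-forms -/
def B2F : Submodule ℂ (TwoF X) := (BC X 1).comap (ofTwoL X : TwoF X →ₗ[ℂ] CForm 2 X)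

theorem conjC_ofFun (s : X → ℂ) : conjC (ofFun s) = ofFun fun x => conj (s x) := rfl

theorem conj_alt1 (c a : Fin 2 → ℂ) (v : Fin 1 → C2) : conj (alt1 c a v) =
    alt1 (fun i => conj (a i)) (fun i => conj (c i)) v := by
  rw [alt1_apply, alt1_apply]
  simp only [map_add, map_mul, Complex.conj_conj]
  ring

theorem conj_alt2 (a b : ℂ) (g : Matrix (Fin 2) (Fin 2) ℂ) (v : Fin 2 → C2) :
    conj (alt2 a g b v) = alt2 (conj b) (Matrix.of fun i j => -conj (g j i)) (conj a) v := by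
  rw [alt2_apply, alt2_apply]
  simp only [map_add, map_mul, map_sub, Complex.conj_conj, Matrix.of_apply]
  ring

theorem conjC_ofOne (A : OneF X) : conjC (ofOne A) = ofOne A.bar := by
  funext x
  ext v
  exact conj_alt1 _ _ _

theorem conjC_ofTwo (F : TwoF X) : conjC (ofTwo F) = ofTwo F.bar := by
  funext x
  ext v
  exact conj_alt2 _ _ _ _

theorem ofOne_real_iff (A : OneF X) : A.Real ↔ conjC (ofOne A) = ofOne A := by
  rw [OneF.real_iff_bar, conjC_ofOne, ofOne_injective.eq_iff]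

theorem ofTwo_real_iff (A : TwoF X) : A.Real ↔ conjC (ofTwo A) = ofTwo A := by
  rw [TwoF.real_iff_bar, conjC_ofTwo, ofTwo_injective.eq_iff]

theorem conjC_eq_iff {k : ℕ} (a : CForm k X) : conjC a = a ↔ ofR (reC a) = a := by
  rw [realStr.fix]
  constructor
  · rintro ⟨w, rfl⟩
    change ofR (reC (ofR w)) = ofR w
    rw [reC_ofR]
  · intro h
    exact ⟨reC a, h⟩

variable [IsManifold 𝓘(ℂ, C2) ω X]

theorem mem_Z1F {A : OneF X} : A ∈ Z1F X ↔ A.Smooth ∧ A.d = 0 := by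
  constructor
  · rintro ⟨h1, h2⟩
    have h3 := smoothC_ofOne.1 h1
    refine ⟨h3, ?_⟩
    have h4 : IsExtDerivC (ofOne A) (ofTwo 0) := by rw [ofTwo_zero]; exact h2
    exact ((isExtDerivC_ofOne h3).1 h4).symm
  · rintro ⟨h1, h2⟩
    refine ⟨smoothC_ofOne.2 h1, ?_⟩
    have h4 := (isExtDerivC_ofOne h1).2 h2.symm
    rwa [ofTwo_zero] at h4

theorem mem_B1F {A : OneF X} : A ∈ B1F X ↔ ∃ s, Reg0 ∞ 0 s ∧ A = dF0 s := by
  constructor
  · rintro ⟨b, h1, h2⟩
    rw [← ofFun_toFun0 b] at h1 h2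
    have h3 := smoothC_ofFun.1 h1
    exact ⟨_, h3, (isExtDerivC_ofFun h3).1 h2⟩
  · rintro ⟨s, h1, h2⟩
    exact ⟨ofFun s, smoothC_ofFun.2 h1, (isExtDerivC_ofFun h1).2 h2⟩

theorem mem_Z2F {F : TwoF X} : F ∈ Z2F X ↔ F.Smooth ∧ F.Closed := by
  constructor
  · rintro ⟨h1, h2⟩
    have h3 := smoothC_ofTwo.1 h1
    exact ⟨h3, (isExtDerivC_ofTwo_zero h3).1 h2⟩
  · rintro ⟨h1, h2⟩
    exact ⟨smoothC_ofTwo.2 h1, (isExtDerivC_ofTwo_zero h1).2 h2⟩

theorem mem_B2F {F : TwoF X} : F ∈ B2F X ↔ ∃ A : OneF X, A.Smooth ∧ F = A.d := by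
  constructor
  · rintro ⟨b, h1, h2⟩
    rw [← ofOne_toOne b] at h1 h2
    have h3 := smoothC_ofOne.1 h1
    exact ⟨_, h3, (isExtDerivC_ofOne h3).1 h2⟩
  · rintro ⟨s, h1, h2⟩
    exact ⟨ofOne s, smoothC_ofOne.2 h1, (isExtDerivC_ofOne h1).2 h2⟩

omit [IsManifold 𝓘(ℂ, C2) ω X] in
/-- the first Betti number, complex forms -/
theorem bettiSucc_zero_iff (n : ℕ) : BettiSucc X 0 n ↔ IsBetti (Z1F X) (B1F X) n := by
  rw [bettiSucc_iff_complex]
  refine (isBetti_map (ofOneL X : OneF X →ₗ[ℂ] CForm 1 X) ?_ (fun v _ => Iff.rfl) n).symm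
  exact Submodule.map_comap_eq_of_surjective (ofOneL X).surjective _

omit [IsManifold 𝓘(ℂ, C2) ω X] in
/-- the second Betti number, complex forms -/
theorem bettiSucc_one_iff (n : ℕ) : BettiSucc X 1 n ↔ IsBetti (Z2F X) (B2F X) n := by
  rw [bettiSucc_iff_complex]
  refine (isBetti_map (ofTwoL X : TwoF X →ₗ[ℂ] CForm 2 X) ?_ (fun v _ => Iff.rfl) n).symm
  exact Submodule.map_comap_eq_of_surjective (ofTwoL X).surjective _

/-! ### real forms -/

omit [IsManifold 𝓘(ℂ, C2) ω X] in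
theorem exists_ofR_iff {k : ℕ} (a : CForm k X) : (∃ b : RForm k X, ofR b = a) ↔ conjC a = a := by
  rw [realStr.fix]
  rfl

variable (X) in
/-- real alternating one-forms inside `OneF X` -/
def rOne : RForm 1 X →ₗ[ℝ] OneF X where
  toFun a := toOne (ofR a)
  map_add' a b := by
    have h := (ofOneL X).symm.map_add (ofR a) (ofR b)
    have h2 : ofR (a + b) = ofR a + ofR b := ofRL.map_add a b
    rw [h2]
    exact h
  map_smul' c a := by
    have h := (ofOneL X).symm.map_smul (c : ℂ) (ofR a)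
    have h2 : ofR (c • a) = (c : ℂ) • ofR a := (ofRL.map_smul c a).trans (real_smul_eq c _).symm
    rw [h2, RingHom.id_apply]
    exact h.trans (real_smul_eq c _)

variable (X) in
/-- real alternating two-forms inside `TwoF X` -/
def rTwo : RForm 2 X →ₗ[ℝ] TwoF X where
  toFun a := toTwo (ofR a)
  map_add' a b := by
    have h := (ofTwoL X).symm.map_add (ofR a) (ofR b)
    have h2 : ofR (a + b) = ofR a + ofR b := ofRL.map_add a b
    rw [h2]
    exact h
  map_smul' c a := by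
    have h := (ofTwoL X).symm.map_smul (c : ℂ) (ofR a)
    have h2 : ofR (c • a) = (c : ℂ) • ofR a := (ofRL.map_smul c a).trans (real_smul_eq c _).symm
    rw [h2, RingHom.id_apply]
    exact h.trans (real_smul_eq c _)

omit [IsManifold 𝓘(ℂ, C2) ω X] in
theorem ofOne_rOne (a : RForm 1 X) : ofOne (rOne X a) = ofR a := ofOne_toOne _
omit [IsManifold 𝓘(ℂ, C2) ω X] in
theorem ofTwo_rTwo (a : RForm 2 X) : ofTwo (rTwo X a) = ofR a := ofTwo_toTwo _

omit [IsManifold 𝓘(ℂ, C2) ω X] in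
theorem rOne_injective : Function.Injective (rOne X) := by
  intro a b h
  have h2 := congrArg ofOne h
  rw [ofOne_rOne, ofOne_rOne] at h2
  exact realStr.inj h2

omit [IsManifold 𝓘(ℂ, C2) ω X] in
theorem rTwo_injective : Function.Injective (rTwo X) := by
  intro a b h
  have h2 := congrArg ofTwo h
  rw [ofTwo_rTwo, ofTwo_rTwo] at h2
  exact realStr.inj h2

omit [IsManifold 𝓘(ℂ, C2) ω X] in
theorem real_iff_rOne (A : OneF X) : A.Real ↔ ∃ a, rOne X a = A := by
  rw [ofOne_real_iff, ← exists_ofR_iff]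
  refine exists_congr fun a => ?_
  rw [← ofOne_injective.eq_iff, ofOne_rOne]

omit [IsManifold 𝓘(ℂ, C2) ω X] in
theorem real_iff_rTwo (A : TwoF X) : A.Real ↔ ∃ a, rTwo X a = A := by
  rw [ofTwo_real_iff, ← exists_ofR_iff]
  refine exists_congr fun a => ?_
  rw [← ofTwo_injective.eq_iff, ofTwo_rTwo]

omit [IsManifold 𝓘(ℂ, C2) ω X] in
theorem real_rOne (a : RForm 1 X) : (rOne X a).Real := (real_iff_rOne _).2 ⟨a, rfl⟩
omit [IsManifold 𝓘(ℂ, C2) ω X] in
theorem real_rTwo (a : RForm 2 X) : (rTwo X a).Real := (real_iff_rTwo _).2 ⟨a, rfl⟩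

theorem smooth_rOne {a : RForm 1 X} : (rOne X a).Smooth ↔ SmoothForm a := by
  rw [← smoothC_ofOne, ofOne_rOne, smoothC_ofR]

theorem smooth_rTwo {a : RForm 2 X} : (rTwo X a).Smooth ↔ SmoothForm a := by
  rw [← smoothC_ofTwo, ofTwo_rTwo, smoothC_ofR]

theorem isExtDeriv_rTwo {a : RForm 1 X} (ha : SmoothForm a) {b : RForm 2 X} :
    IsExtDeriv a b ↔ rTwo X b = (rOne X a).d := by
  rw [← isExtDerivC_ofR ha, ← ofOne_rOne, ← ofTwo_rTwo, isExtDerivC_ofOne (smooth_rOne.2 ha)]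

theorem closed_rOne {a : RForm 1 X} (ha : SmoothForm a) : ClosedForm a ↔ (rOne X a).d = 0 := by
  unfold ClosedForm
  rw [isExtDeriv_rTwo ha, map_zero, eq_comm]

omit [IsManifold 𝓘(ℂ, C2) ω X] in
theorem ofR_zero {k : ℕ} : ofR (0 : RForm k X) = 0 := ofRL.map_zero

theorem closed_rTwo {a : RForm 2 X} (ha : SmoothForm a) : ClosedForm a ↔ (rTwo X a).Closed := by
  unfold ClosedForm
  rw [← isExtDerivC_ofR ha, ofR_zero, ← ofTwo_rTwo, isExtDerivC_ofTwo_zero (smooth_rTwo.2 ha)]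

variable (X) in
/-- closed smooth real one-forms -/
def Z1R : Submodule ℝ (OneF X) := (ZR X 1).map (rOne X)
variable (X) in
/-- exact real one-forms -/
def B1R : Submodule ℝ (OneF X) := (BR X 0).map (rOne X)
variable (X) in
/-- closed smooth real two-forms -/
def Z2R : Submodule ℝ (TwoF X) := (ZR X 2).map (rTwo X)
variable (X) in
/-- exact real two-forms -/
def B2R : Submodule ℝ (TwoF X) := (BR X 1).map (rTwo X)

theorem mem_Z1R {A : OneF X} : A ∈ Z1R X ↔ A.Smooth ∧ A.Real ∧ A.d = 0 := by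
  constructor
  · rintro ⟨a, ⟨h1, h2⟩, rfl⟩
    exact ⟨smooth_rOne.2 h1, real_rOne a, (closed_rOne h1).1 h2⟩
  · rintro ⟨h1, h2, h3⟩
    obtain ⟨a, rfl⟩ := (real_iff_rOne A).1 h2
    exact ⟨a, ⟨smooth_rOne.1 h1, (closed_rOne (smooth_rOne.1 h1)).2 h3⟩, rfl⟩

theorem mem_Z2R {A : TwoF X} : A ∈ Z2R X ↔ A.Smooth ∧ A.Real ∧ A.Closed := by
  constructor
  · rintro ⟨a, ⟨h1, h2⟩, rfl⟩
    exact ⟨smooth_rTwo.2 h1, real_rTwo a, (closed_rTwo h1).1 h2⟩
  · rintro ⟨h1, h2, h3⟩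
    obtain ⟨a, rfl⟩ := (real_iff_rTwo A).1 h2
    exact ⟨a, ⟨smooth_rTwo.1 h1, (closed_rTwo (smooth_rTwo.1 h1)).2 h3⟩, rfl⟩

theorem mem_B1R {A : OneF X} : A ∈ B1R X ↔
    ∃ s : X → ℂ, Reg0 ∞ 0 s ∧ (∀ x, conj (s x) = s x) ∧ A = dF0 s := by
  constructor
  · rintro ⟨a, ⟨b, h1, h2⟩, rfl⟩
    have h3 := (isExtDerivC_ofR h1).2 h2
    have h4 := smoothC_ofR.2 h1
    rw [← ofFun_toFun0 (ofR b)] at h3 h4
    have h5 := smoothC_ofFun.1 h4
    refine ⟨toFun0 (ofR b), h5, fun x => Complex.conj_ofReal _, ?_⟩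
    rw [← ofOne_rOne] at h3
    exact (isExtDerivC_ofFun h5).1 h3
  · rintro ⟨s, h1, h2, rfl⟩
    have h3 : ∃ b : RForm 0 X, ofR b = ofFun s := by
      rw [exists_ofR_iff, conjC_ofFun]
      congr 1
      funext x
      exact h2 x
    obtain ⟨b, hb⟩ := h3
    have h4 : SmoothForm b := smoothC_ofR.1 (by rw [hb]; exact smoothC_ofFun.2 h1)
    have h5 : (dF0 s).Real := by
      rw [ofOne_real_iff, ← dC_ofFun]
      have h6 : IsExtDerivC (ofFun s) (dC (ofFun s)) := isExtDerivC_dC (smoothC_ofFun.2 h1).diff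
      have h7 := h6.conjC (smoothC_ofFun.2 h1)
      have h8 : conjC (ofFun s) = ofFun s := by
        rw [conjC_ofFun]
        congr 1
        funext x
        exact h2 x
      rw [h8, isExtDerivC_iff (smoothC_ofFun.2 h1).diff] at h7
      exact h7
    obtain ⟨a, ha⟩ := (real_iff_rOne _).1 h5
    refine ⟨a, ⟨b, h4, ?_⟩, ha⟩
    rw [← isExtDerivC_ofR h4, hb, ← ofOne_rOne, isExtDerivC_ofFun h1]
    exact ha

theorem mem_B2R {F : TwoF X} : F ∈ B2R X ↔ ∃ A : OneF X, A.Smooth ∧ A.Real ∧ F = A.d := by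
  constructor
  · rintro ⟨a, ⟨b, h1, h2⟩, rfl⟩
    exact ⟨rOne X b, smooth_rOne.2 h1, real_rOne b, (isExtDeriv_rTwo h1).1 h2⟩
  · rintro ⟨A, h1, h2, rfl⟩
    obtain ⟨b, rfl⟩ := (real_iff_rOne A).1 h2
    have h3 : SmoothForm b := smooth_rOne.1 h1
    have h5 : ((rOne X b).d).Real := by
      rw [ofTwo_real_iff, ← dC_ofOne (diff1_of_smooth h1)]
      have h6 : IsExtDerivC (ofOne (rOne X b)) (dC (ofOne (rOne X b))) :=
        isExtDerivC_dC (smoothC_ofOne.2 h1).diff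
      have h7 := h6.conjC (smoothC_ofOne.2 h1)
      rw [(ofOne_real_iff _).1 h2, isExtDerivC_iff (smoothC_ofOne.2 h1).diff] at h7
      exact h7
    obtain ⟨a, ha⟩ := (real_iff_rTwo _).1 h5
    exact ⟨a, ⟨b, h3, (isExtDeriv_rTwo h3).2 ha⟩, ha⟩

omit [IsManifold 𝓘(ℂ, C2) ω X] in
/-- the first Betti number, real forms -/
theorem bettiSucc_zero_iff_real (n : ℕ) : BettiSucc X 0 n ↔ IsBetti (Z1R X) (B1R X) n := by
  rw [bettiSucc_iff_isBetti]
  refine isBetti_map (rOne X) rfl (fun v _ => ?_) n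
  constructor
  · rintro ⟨w, hw, h⟩
    rwa [← rOne_injective h]
  · intro h
    exact ⟨v, h, rfl⟩

omit [IsManifold 𝓘(ℂ, C2) ω X] in
/-- the second Betti number, real forms -/
theorem bettiSucc_one_iff_real (n : ℕ) : BettiSucc X 1 n ↔ IsBetti (Z2R X) (B2R X) n := by
  rw [bettiSucc_iff_isBetti]
  refine isBetti_map (rTwo X) rfl (fun v _ => ?_) n
  constructor
  · rintro ⟨w, hw, h⟩
    rwa [← rTwo_injective h]
  · intro h
    exact ⟨v, h, rfl⟩

end Vale.Agent.P267.H857
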