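import Vale.Agent.P267.H857.Bridge3

/-!
# P267 BRIDGE-ALT (6): three-forms, closed two-forms, local formulas for `d`
-/

open scoped Manifold ContDiff ComplexConjugate Topology
open Set Filter Matrix

noncomputable section

namespace Vale.Agent.P267.H857

open Vale.Agent.P267.FL

/-! ### components of a three-form -/

/-- `(2,1)`-components of a three-form -/
def cf21 (γ : C2 [⋀^Fin 3]→L[ℝ] ℂ) (j : Fin 2) : ℂ :=
  (1 / 8 : ℂ) * (γ ![be 0, be 1, be j] + Complex.I * γ ![be 0, be 1, bi j]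
    - Complex.I * γ ![be 0, bi 1, be j] + γ ![be 0, bi 1, bi j]
    - Complex.I * γ ![bi 0, be 1, be j] + γ ![bi 0, be 1, bi j]
    - γ ![bi 0, bi 1, be j] - Complex.I * γ ![bi 0, bi 1, bi j])

/-- `(1,2)`-components of a three-form -/
def cf12 (γ : C2 [⋀^Fin 3]→L[ℝ] ℂ) (i : Fin 2) : ℂ :=
  (1 / 8 : ℂ) * (γ ![be i, be 0, be 1] + Complex.I * γ ![be i, be 0, bi 1]
    + Complex.I * γ ![be i, bi 0, be 1] - γ ![be i, bi 0, bi 1]
    - Complex.I * γ ![bi i, be 0, be 1] + γ ![bi i, be 0, bi 1]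
    + γ ![bi i, bi 0, be 1] + Complex.I * γ ![bi i, bi 0, bi 1])

theorem cf21_alt3 (g21 g12 : Fin 2 → ℂ) : cf21 (alt3 g21 g12) = g21 := by
  funext i
  fin_cases i <;>
  · simp only [cf21, alt3_apply, Fin.sum_univ_two]
    apply Complex.ext <;> simp [be, bi] <;> ring

theorem cf12_alt3 (g21 g12 : Fin 2 → ℂ) : cf12 (alt3 g21 g12) = g12 := by
  funext i
  fin_cases i <;>
  · simp only [cf12, alt3_apply, Fin.sum_univ_two]
    apply Complex.ext <;> simp [be, bi] <;> ring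

theorem alt3_inj {g21 g12 g21' g12' : Fin 2 → ℂ} (h : alt3 g21 g12 = alt3 g21' g12') :
    g21 = g21' ∧ g12 = g12' := by
  have h1 := congrArg cf21 h
  have h2 := congrArg cf12 h
  rw [cf21_alt3, cf21_alt3] at h1
  rw [cf12_alt3, cf12_alt3] at h2
  exact ⟨h1, h2⟩

theorem alt2_inj {a a' b b' : ℂ} {g g' : Matrix (Fin 2) (Fin 2) ℂ}
    (h : alt2 a g b = alt2 a' g' b') : a = a' ∧ g = g' ∧ b = b' := by
  have h1 := congrArg cf20 h
  have h2 := congrArg cf11 h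
  have h3 := congrArg cf02 h
  rw [cf20_alt2, cf20_alt2] at h1
  rw [cf11_alt2, cf11_alt2] at h2
  rw [cf02_alt2, cf02_alt2] at h3
  exact ⟨h1, h2, h3⟩

theorem alt1_inj {a a' b b' : Fin 2 → ℂ} (h : alt1 a b = alt1 a' b') : a = a' ∧ b = b' := by
  have h1 := congrArg cf10 h
  have h2 := congrArg cf01 h
  rw [cf10_alt1, cf10_alt1] at h1
  rw [cf01_alt1, cf01_alt1] at h2
  exact ⟨h1, h2⟩

theorem alt3_zero : alt3 0 0 = 0 := by
  ext v
  rw [alt3_apply]
  simp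

theorem alt2_zero : alt2 0 0 0 = 0 := by
  ext v
  rw [alt2_apply]
  simp

theorem alt1_zero : alt1 0 0 = 0 := by
  ext v
  rw [alt1_apply]
  simp

variable {X : Type*} [TopologicalSpace X] [ChartedSpace C2 X]

theorem ofThree_zero : (ofThree 0 0 : CForm 3 X) = 0 := by
  funext x
  exact alt3_zero

theorem ofThree_inj {g21 g12 g21' g12' : X → Fin 2 → ℂ}
    (h : (ofThree g21 g12 : CForm 3 X) = ofThree g21' g12') : g21 = g21' ∧ g12 = g12' := by
  constructor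
  · funext x
    exact (alt3_inj (congrFun h x)).1
  · funext x
    exact (alt3_inj (congrFun h x)).2

variable [IsManifold 𝓘(ℂ, C2) ω X]

theorem isExtDerivC_ofTwo {F : TwoF X} (hF : F.Smooth) {g21 g12 : X → Fin 2 → ℂ} :
    IsExtDerivC (ofTwo F) (ofThree g21 g12) ↔ g21 = F.d21 ∧ g12 = F.d12 := by
  rw [isExtDerivC_iff (smoothC_ofTwo.2 hF).diff, dC_ofTwo (diff2_of_smooth hF)]
  constructor
  · exact ofThree_inj
  · rintro ⟨rfl, rfl⟩
    rfl

theorem isExtDerivC_ofTwo_zero {F : TwoF X} (hF : F.Smooth) :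
    IsExtDerivC (ofTwo F) 0 ↔ F.Closed := by
  rw [← ofThree_zero, isExtDerivC_ofTwo hF]
  constructor
  · rintro ⟨h1, h2⟩
    exact ⟨fun x j => congrFun (congrFun h1.symm x) j, fun x j => congrFun (congrFun h2.symm x) j⟩
  · rintro ⟨h1, h2⟩
    exact ⟨funext fun x => funext fun j => (h1 x j).symm,
      funext fun x => funext fun j => (h2 x j).symm⟩

/-! ### `d` commutes with localisation -/

theorem loc_dF0 {s : X → ℂ} {e : Ch X} (he : e ∈ atlas C2 X) {z : C2}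
    (hz : z ∈ e.target) (hs : ∀ e ∈ atlas C2 X, ∀ z ∈ e.target, DifferentiableAt ℝ (loc0 0 e s) z) :
    loc10 e (dF0 s).f10 z = (fun i => dz i (loc0 0 e s) z) ∧
      loc1 0 e (dF0 s).f01 z = fun i => dzb i (loc0 0 e s) z := by
  have hd : DiffC (ofFun s) := by
    intro e he z hz
    rw [pullC_ofFun_ev]
    exact (ContinuousAlternatingMap.constOfIsEmptyLIE ℝ C2 ℂ (Fin 0)).differentiableAt.comp z
      (hs e he z hz)
  have h := isExtDerivC_dC hd e he z hz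
  rw [dC_ofFun, extDeriv_pullC_ofFun, pullC_ofOne he _ hz] at h
  have h2 := alt1_inj h
  exact ⟨h2.1.symm, h2.2.symm⟩

theorem loc_d {A : OneF X} (hA : Diff1 A) {e : Ch X} (he : e ∈ atlas C2 X) {z : C2}
    (hz : z ∈ e.target) :
    loc0 1 e A.d.f20 z = dz 0 (fun z => loc10 e A.f10 z 1) z - dz 1 (fun z => loc10 e A.f10 z 0) z ∧
    loc11 e A.d.f11 z = (Matrix.of fun i j => dz i (fun z => loc1 0 e A.f01 z j) z -
        dzb j (fun z => loc10 e A.f10 z i) z) ∧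
    loc2 0 e A.d.f02 z =
      dzb 0 (fun z => loc1 0 e A.f01 z 1) z - dzb 1 (fun z => loc1 0 e A.f01 z 0) z := by
  have h := isExtDerivC_dC (diffC_ofOne hA) e he z hz
  obtain ⟨h1, h2⟩ := hA e he z hz
  rw [dC_ofOne hA, extDeriv_pullC_ofOne he A hz h1 h2, pullC_ofTwo he _ hz] at h
  obtain ⟨a, b, c⟩ := alt2_inj h
  exact ⟨a.symm, b.symm, c.symm⟩

theorem loc_d21 {F : TwoF X} (hF : Diff2 F) {e : Ch X} (he : e ∈ atlas C2 X) {z : C2}
    (hz : z ∈ e.target) :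
    (fun j => (jac e (e.symm z)).det * ∑ p, conj (jac e (e.symm z) p j) * F.d21 (e.symm z) p) =
      (fun j => dzb j (loc0 1 e F.f20) z + (dz 0 (fun z => loc11 e F.f11 z 1 j) z -
        dz 1 (fun z => loc11 e F.f11 z 0 j) z)) ∧
    (fun i => conj (jac e (e.symm z)).det * ∑ p, jac e (e.symm z) p i * F.d12 (e.symm z) p) =
      (fun i => dz i (loc2 0 e F.f02) z - (dzb 0 (fun z => loc11 e F.f11 z i 1) z -
          dzb 1 (fun z => loc11 e F.f11 z i 0) z)) := by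
  have h := isExtDerivC_dC (diffC_ofTwo hF) e he z hz
  obtain ⟨h1, h2, h3⟩ := hF e he z hz
  rw [dC_ofTwo hF, extDeriv_pullC_ofTwo he F hz h1 h2 h3, pullC_ofThree he _ _ hz] at h
  obtain ⟨a, b⟩ := alt3_inj h
  exact ⟨a.symm, b.symm⟩

theorem smooth_dF0 {s : X → ℂ} (hs : Reg0 ∞ 0 s) : (dF0 s).Smooth := by
  rw [← smoothC_ofOne, ← dC_ofFun]
  exact smoothC_dC (smoothC_ofFun.2 hs)

theorem smooth_d {A : OneF X} (hA : A.Smooth) : A.d.Smooth := by
  rw [← smoothC_ofTwo, ← dC_ofOne (diff1_of_smooth hA)]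
  exact smoothC_dC (smoothC_ofOne.2 hA)

theorem d_dF0 {s : X → ℂ} (hs : Reg0 ∞ 0 s) : (dF0 s).d = 0 := by
  apply ofTwo_injective
  rw [← dC_ofOne (diff1_of_smooth (smooth_dF0 hs)), ← dC_ofFun, dC_dC (smoothC_ofFun.2 hs)]
  funext x
  exact alt2_zero.symm

theorem closed_d {A : OneF X} (hA : A.Smooth) : A.d.Closed := by
  rw [← isExtDerivC_ofTwo_zero (smooth_d hA), isExtDerivC_iff (smoothC_ofTwo.2 (smooth_d hA)).diff,
    ← dC_ofOne (diff1_of_smooth hA), dC_dC (smoothC_ofOne.2 hA)]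

end Vale.Agent.P267.H857
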