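import Vale.Agent.P267.H857.Betti2
import Vale.Agent.P267.H469.Inst

/-!
# P267 BRIDGE-ALT (10): Betti numbers for the spaces of smooth forms of helper469
-/

open scoped Manifold ContDiff ComplexConjugate Topology
open Set Filter Matrix

noncomputable section

namespace Vale.Agent.P267.H857

open Vale.Agent.P267.FL
open Vale.Agent.P267.H469 (S0 S10 S01 S20 S11 S02 Om1 Om2 Om3 D0 D1 D2)

variable {X : Type*} [TopologicalSpace X] [ChartedSpace C2 X] [IsManifold 𝓘(ℂ, C2) ω X]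

/-- a pair of smooth forms as a one-form -/
def ofOm1 : Om1 X →ₗ[ℂ] OneF X where
  toFun A := ⟨A.1, A.2⟩
  map_add' _ _ := rfl
  map_smul' _ _ := rfl

/-- a triple of smooth forms as a two-form -/
def ofOm2 : Om2 X →ₗ[ℂ] TwoF X where
  toFun F := ⟨F.1, F.2.1, F.2.2⟩
  map_add' _ _ := rfl
  map_smul' _ _ := rfl

theorem ofOm1_injective : Function.Injective (ofOm1 (X := X)) := by
  intro A B h
  refine Prod.ext (Subtype.ext ?_) (Subtype.ext ?_)
  · exact congrArg OneF.f10 h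
  · exact congrArg OneF.f01 h

theorem ofOm2_injective : Function.Injective (ofOm2 (X := X)) := by
  intro A B h
  refine Prod.ext (Subtype.ext ?_) (Prod.ext (Subtype.ext ?_) (Subtype.ext ?_))
  · exact congrArg TwoF.f20 h
  · exact congrArg TwoF.f11 h
  · exact congrArg TwoF.f02 h

theorem ofOm1_smooth (A : Om1 X) : (ofOm1 A).Smooth := ⟨A.1.2, A.2.2⟩
theorem ofOm2_smooth (F : Om2 X) : (ofOm2 F).Smooth := ⟨F.1.2, F.2.1.2, F.2.2.2⟩

theorem exists_ofOm1 {A : OneF X} (h : A.Smooth) : ∃ B, ofOm1 B = A :=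
  ⟨(⟨A.f10, h.s10⟩, ⟨A.f01, h.s01⟩), rfl⟩
theorem exists_ofOm2 {A : TwoF X} (h : A.Smooth) : ∃ B, ofOm2 B = A :=
  ⟨(⟨A.f20, h.s20⟩, ⟨A.f11, h.s11⟩, ⟨A.f02, h.s02⟩), rfl⟩

theorem ofOm2_D1 (A : Om1 X) : ofOm2 (D1 A) = (ofOm1 A).d := rfl
theorem ofOm1_D0 (s : S0 X) : ofOm1 (D0 s) = dF0 (s : X → ℂ) := rfl

theorem closed_iff_D2 (F : Om2 X) : (ofOm2 F).Closed ↔ D2 F = 0 := by
  have e1 : ((D2 F).1 : X → Fin 2 → ℂ) = (ofOm2 F).d21 := rfl
  have e2 : ((D2 F).2 : X → Fin 2 → ℂ) = (ofOm2 F).d12 := (H469.d12_eq (ofOm2 F)).symm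
  constructor
  · rintro ⟨h1, h2⟩
    refine Prod.ext (Subtype.ext ?_) (Subtype.ext ?_)
    · rw [e1]
      funext x j
      exact h1 x j
    · rw [e2]
      funext x j
      exact h2 x j
  · intro h
    constructor
    · intro x j
      rw [← e1, h]
      rfl
    · intro x j
      rw [← e2, h]
      rfl

/-- `b_1 = n` -/
theorem bettiSucc_zero_iff_D (n : ℕ) : BettiSucc X 0 n ↔
    IsBetti (LinearMap.ker (D1 (X := X))) (LinearMap.range (D0 (X := X))) n := by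
  rw [bettiSucc_zero_iff]
  refine (isBetti_map (ofOm1 (X := X)) ?_ ?_ n).symm
  · ext A
    rw [mem_Z1F]
    constructor
    · rintro ⟨B, hB, rfl⟩
      refine ⟨ofOm1_smooth B, ?_⟩
      rw [← ofOm2_D1, LinearMap.mem_ker.1 hB]
      rfl
    · rintro ⟨h1, h2⟩
      obtain ⟨B, rfl⟩ := exists_ofOm1 h1
      refine ⟨B, ?_, rfl⟩
      apply ofOm2_injective
      rw [ofOm2_D1, h2]
      rfl
  · intro v _
    rw [mem_B1F]
    constructor
    · rintro ⟨s, hs, h⟩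
      refine ⟨⟨s, hs⟩, ?_⟩
      apply ofOm1_injective
      rw [ofOm1_D0, h]
    · rintro ⟨s, rfl⟩
      exact ⟨s, s.2, rfl⟩

/-- `b_2 = n` -/
theorem bettiSucc_one_iff_D (n : ℕ) : BettiSucc X 1 n ↔
    IsBetti (LinearMap.ker (D2 (X := X))) (LinearMap.range (D1 (X := X))) n := by
  rw [bettiSucc_one_iff]
  refine (isBetti_map (ofOm2 (X := X)) ?_ ?_ n).symm
  · ext A
    rw [mem_Z2F]
    constructor
    · rintro ⟨B, hB, rfl⟩
      exact ⟨ofOm2_smooth B, (closed_iff_D2 B).2 hB⟩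
    · rintro ⟨h1, h2⟩
      obtain ⟨B, rfl⟩ := exists_ofOm2 h1
      exact ⟨B, (closed_iff_D2 B).1 h2, rfl⟩
  · intro v _
    rw [mem_B2F]
    constructor
    · rintro ⟨A, hA, h⟩
      obtain ⟨B, rfl⟩ := exists_ofOm1 hA
      refine ⟨B, ?_⟩
      apply ofOm2_injective
      rw [ofOm2_D1, h]
    · rintro ⟨B, rfl⟩
      exact ⟨ofOm1 B, ofOm1_smooth B, rfl⟩

/-- dimension of the first de Rham cohomology -/
theorem finrank_H1 {n : ℕ} (h : BettiSucc X 0 n) :
    Module.Finite ℂ (HQ (LinearMap.ker (D1 (X := X))) (LinearMap.range (D0 (X := X)))) ∧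
    Module.finrank ℂ (HQ (LinearMap.ker (D1 (X := X))) (LinearMap.range (D0 (X := X)))) = n :=
  (isBetti_iff_finrank _ _ n).1 ((bettiSucc_zero_iff_D n).1 h)

/-- dimension of the second de Rham cohomology -/
theorem finrank_H2 {n : ℕ} (h : BettiSucc X 1 n) :
    Module.Finite ℂ (HQ (LinearMap.ker (D2 (X := X))) (LinearMap.range (D1 (X := X)))) ∧
    Module.finrank ℂ (HQ (LinearMap.ker (D2 (X := X))) (LinearMap.range (D1 (X := X)))) = n :=
  (isBetti_iff_finrank _ _ n).1 ((bettiSucc_one_iff_D n).1 h)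

end Vale.Agent.P267.H857
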