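import Vale.Agent.P267.H857.Bridge4
import Vale.Agent.P267.H857.BettiLin

/-!
# P267 BRIDGE-ALT (8): real and complex forms, Betti numbers
-/

open scoped Manifold ContDiff ComplexConjugate Topology
open Set Filter Matrix

noncomputable section

namespace Vale.Agent.P267.H857

open Vale.Agent.P267.FL

/-! ### post-composition of forms with real linear maps of the values -/

section post

variable {F G : Type*} [NormedAddCommGroup F] [NormedSpace ℝ F] [NormedAddCommGroup G]
  [NormedSpace ℝ G] {k : ℕ}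

theorem contDiffAt_post {n : WithTop ℕ∞} (L : F →L[ℝ] G) {f : C2 → C2 [⋀^Fin k]→L[ℝ] F} {x : C2}
    (hf : ContDiffAt ℝ n f x) :
    ContDiffAt ℝ n (fun z => L.compContinuousAlternatingMap (f z)) x :=
  (ContinuousLinearMap.compContinuousAlternatingMapCLM ℝ C2 F G (Fin k) L).contDiff.contDiffAt.comp
    x hf

theorem differentiableAt_post (L : F →L[ℝ] G) {f : C2 → C2 [⋀^Fin k]→L[ℝ] F} {x : C2}
    (hf : DifferentiableAt ℝ f x) :
    DifferentiableAt ℝ (fun z => L.compContinuousAlternatingMap (f z)) x :=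
  (ContinuousLinearMap.compContinuousAlternatingMapCLM ℝ C2 F G (Fin k) L).differentiableAt.comp x hf

theorem extDeriv_post (L : F →L[ℝ] G) {f : C2 → C2 [⋀^Fin k]→L[ℝ] F} {x : C2}
    (hf : DifferentiableAt ℝ f x) :
    extDeriv (fun z => L.compContinuousAlternatingMap (f z)) x =
      L.compContinuousAlternatingMap (extDeriv f x) := by
  ext v
  rw [extDeriv_apply (differentiableAt_post L hf)]
  change _ = L (extDeriv f x v)
  rw [extDeriv_apply hf, map_sum]
  refine Finset.sum_congr rfl fun i _ => ?_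
  rw [map_zsmul]
  congr 1
  have h1 : DifferentiableAt ℝ (fun z => f z (i.removeNth v)) x :=
    (ContinuousAlternatingMap.apply ℝ C2 F (i.removeNth v)).differentiableAt.comp x hf
  have h2 := (L.hasFDerivAt.comp x h1.hasFDerivAt).fderiv
  exact congrArg (fun M : C2 →L[ℝ] G => M (v i)) h2

end post

/-! ### real forms inside complex forms -/

variable {X : Type*} [TopologicalSpace X] [ChartedSpace C2 X] {k : ℕ}

/-- complex form with values in the real numbers -/
def ofR (a : RForm k X) : CForm k X := fun x => Complex.ofRealCLM.compContinuousAlternatingMap (a x)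

/-- real part -/
def reC (a : CForm k X) : RForm k X := fun x => Complex.reCLM.compContinuousAlternatingMap (a x)

/-- imaginary part -/
def imC (a : CForm k X) : RForm k X := fun x => Complex.imCLM.compContinuousAlternatingMap (a x)

/-- conjugate form -/
def conjC (a : CForm k X) : CForm k X := fun x =>
  (Complex.conjCLE : ℂ →L[ℝ] ℂ).compContinuousAlternatingMap (a x)

/-- multiplication by a complex number -/
def mulCL (c : ℂ) : ℂ →L[ℝ] ℂ := (c • ContinuousLinearMap.id ℂ ℂ).restrictScalars ℝ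

theorem pullC_ofR (f : C2 → X) (a : RForm k X) : pullC f (ofR a) = fun z =>
    Complex.ofRealCLM.compContinuousAlternatingMap (pullForm f a z) := rfl

theorem pullForm_reC (f : C2 → X) (a : CForm k X) : pullForm f (reC a) = fun z =>
    Complex.reCLM.compContinuousAlternatingMap (pullC f a z) := rfl

theorem pullForm_imC (f : C2 → X) (a : CForm k X) : pullForm f (imC a) = fun z =>
    Complex.imCLM.compContinuousAlternatingMap (pullC f a z) := rfl

theorem pullC_conjC (f : C2 → X) (a : CForm k X) : pullC f (conjC a) = fun z =>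
    (Complex.conjCLE : ℂ →L[ℝ] ℂ).compContinuousAlternatingMap (pullC f a z) := rfl

theorem pullC_smul (f : C2 → X) (c : ℂ) (a : CForm k X) : pullC f (c • a) = fun z =>
    (mulCL c).compContinuousAlternatingMap (pullC f a z) := rfl

theorem pullC_add (f : C2 → X) (a b : CForm k X) : pullC f (a + b) = pullC f a + pullC f b := rfl

theorem pullC_zero (f : C2 → X) : pullC f (0 : CForm k X) = 0 := rfl

theorem pullForm_add (f : C2 → X) (a b : RForm k X) :
    pullForm f (a + b) = pullForm f a + pullForm f b := rfl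

theorem pullForm_zero (f : C2 → X) : pullForm f (0 : RForm k X) = 0 := rfl

theorem pullForm_smul (f : C2 → X) (c : ℝ) (a : RForm k X) :
    pullForm f (c • a) = c • pullForm f a := rfl

/-! ### smoothness -/

theorem smoothForm_contDiffAt {a : RForm k X} (h : SmoothForm a) {e : Ch X}
    (he : e ∈ atlas C2 X) {z : C2} (hz : z ∈ e.target) : ContDiffAt ℝ ∞ (pullForm e.symm a) z :=
  (h e he).contDiffAt (e.open_target.mem_nhds hz)

theorem smoothForm_iff {a : RForm k X} : SmoothForm a ↔
    ∀ e ∈ atlas C2 X, ∀ z ∈ e.target, ContDiffAt ℝ ∞ (pullForm e.symm a) z :=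
  ⟨fun h _ he _ hz => smoothForm_contDiffAt h he hz,
    fun h e he z hz => (h e he z hz).contDiffWithinAt⟩

theorem smoothC_iff {a : CForm k X} : SmoothC a ↔
    ∀ e ∈ atlas C2 X, ∀ z ∈ e.target, ContDiffAt ℝ ∞ (pullC e.symm a) z :=
  ⟨fun h _ he _ hz => h.contDiffAt he hz, fun h e he z hz => (h e he z hz).contDiffWithinAt⟩

theorem SmoothC.reC {a : CForm k X} (h : SmoothC a) : SmoothForm (reC a) :=
  smoothForm_iff.2 fun _ he _ hz => contDiffAt_post Complex.reCLM (smoothC_iff.1 h _ he _ hz)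

theorem SmoothC.imC {a : CForm k X} (h : SmoothC a) : SmoothForm (imC a) :=
  smoothForm_iff.2 fun _ he _ hz => contDiffAt_post Complex.imCLM (smoothC_iff.1 h _ he _ hz)

theorem SmoothC.conjC {a : CForm k X} (h : SmoothC a) : SmoothC (conjC a) :=
  smoothC_iff.2 fun _ he _ hz => contDiffAt_post (Complex.conjCLE : ℂ →L[ℝ] ℂ)
    (smoothC_iff.1 h _ he _ hz)

theorem SmoothC.smul {a : CForm k X} (h : SmoothC a) (c : ℂ) : SmoothC (c • a) :=
  smoothC_iff.2 fun _ he _ hz => contDiffAt_post (mulCL c) (smoothC_iff.1 h _ he _ hz)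

theorem SmoothC.add {a b : CForm k X} (h : SmoothC a) (h' : SmoothC b) : SmoothC (a + b) :=
  smoothC_iff.2 fun _ he _ hz => (smoothC_iff.1 h _ he _ hz).add (smoothC_iff.1 h' _ he _ hz)

theorem smoothC_zero : SmoothC (0 : CForm k X) :=
  smoothC_iff.2 fun _ _ _ _ =>
    (contDiffAt_const : ContDiffAt ℝ ∞ (fun _ : C2 => (0 : C2 [⋀^Fin k]→L[ℝ] ℂ)) _)

theorem smoothForm_add {a b : RForm k X} (h : SmoothForm a) (h' : SmoothForm b) :
    SmoothForm (a + b) :=
  smoothForm_iff.2 fun _ he _ hz =>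
    (smoothForm_iff.1 h _ he _ hz).add (smoothForm_iff.1 h' _ he _ hz)

theorem smoothForm_smul {a : RForm k X} (h : SmoothForm a) (c : ℝ) :
    SmoothForm (c • a) :=
  smoothForm_iff.2 fun _ he _ hz => (smoothForm_iff.1 h _ he _ hz).const_smul c

theorem smoothForm_zero : SmoothForm (0 : RForm k X) :=
  smoothForm_iff.2 fun _ _ _ _ =>
    (contDiffAt_const : ContDiffAt ℝ ∞ (fun _ : C2 => (0 : C2 [⋀^Fin k]→L[ℝ] ℝ)) _)

theorem reC_ofR (a : RForm k X) : reC (ofR a) = a := by
  funext x
  ext v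
  exact Complex.ofReal_re _

theorem smoothC_ofR {a : RForm k X} : SmoothC (ofR a) ↔ SmoothForm a := by
  constructor
  · intro h
    have h2 := h.reC
    rwa [reC_ofR] at h2
  · intro h
    exact smoothC_iff.2 fun _ he _ hz => contDiffAt_post Complex.ofRealCLM
      (smoothForm_iff.1 h _ he _ hz)

/-! ### exterior derivatives -/

theorem dd_of_smooth {a : RForm k X} (h : SmoothForm a) {e : Ch X} (he : e ∈ atlas C2 X) {z : C2}
    (hz : z ∈ e.target) : DifferentiableAt ℝ (pullForm e.symm a) z :=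
  (smoothForm_contDiffAt h he hz).differentiableAt (by simp)

theorem IsExtDerivC.reC {b : CForm k X} {a : CForm (k + 1) X} (h : IsExtDerivC b a)
    (hb : SmoothC b) : IsExtDeriv (reC b) (reC a) := by
  intro e he z hz
  rw [pullForm_reC, pullForm_reC]
  rw [extDeriv_post Complex.reCLM (hb.diff e he z hz), h e he z hz]

theorem IsExtDerivC.imC {b : CForm k X} {a : CForm (k + 1) X} (h : IsExtDerivC b a)
    (hb : SmoothC b) : IsExtDeriv (imC b) (imC a) := by
  intro e he z hz
  rw [pullForm_imC, pullForm_imC]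
  rw [extDeriv_post Complex.imCLM (hb.diff e he z hz), h e he z hz]

theorem IsExtDerivC.conjC {b : CForm k X} {a : CForm (k + 1) X} (h : IsExtDerivC b a)
    (hb : SmoothC b) : IsExtDerivC (conjC b) (conjC a) := by
  intro e he z hz
  rw [pullC_conjC, pullC_conjC]
  rw [extDeriv_post (Complex.conjCLE : ℂ →L[ℝ] ℂ) (hb.diff e he z hz), h e he z hz]

theorem IsExtDerivC.smul {b : CForm k X} {a : CForm (k + 1) X} (h : IsExtDerivC b a)
    (hb : SmoothC b) (c : ℂ) : IsExtDerivC (c • b) (c • a) := by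
  intro e he z hz
  rw [pullC_smul, pullC_smul]
  rw [extDeriv_post (mulCL c) (hb.diff e he z hz), h e he z hz]

theorem IsExtDerivC.add {b b' : CForm k X} {a a' : CForm (k + 1) X} (h : IsExtDerivC b a)
    (h' : IsExtDerivC b' a') (hb : SmoothC b) (hb' : SmoothC b') :
    IsExtDerivC (b + b') (a + a') := by
  intro e he z hz
  rw [pullC_add, pullC_add, extDeriv_add (hb.diff e he z hz) (hb'.diff e he z hz), h e he z hz,
    h' e he z hz]
  rfl

theorem isExtDeriv_add {b b' : RForm k X} {a a' : RForm (k + 1) X} (h : IsExtDeriv b a)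
    (h' : IsExtDeriv b' a') (hb : SmoothForm b) (hb' : SmoothForm b') :
    IsExtDeriv (b + b') (a + a') := by
  intro e he z hz
  rw [pullForm_add, pullForm_add, extDeriv_add (dd_of_smooth hb he hz) (dd_of_smooth hb' he hz),
    h e he z hz, h' e he z hz]
  rfl

theorem isExtDeriv_smul {b : RForm k X} {a : RForm (k + 1) X} (h : IsExtDeriv b a) (c : ℝ) :
    IsExtDeriv (c • b) (c • a) := by
  intro e he z hz
  rw [pullForm_smul, pullForm_smul, extDeriv_smul, h e he z hz]
  rfl

theorem isExtDeriv_zero : IsExtDeriv (0 : RForm k X) 0 := by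
  intro e he z hz
  have h := isExtDeriv_smul (X := X) (b := (0 : RForm k X)) (a := 0)
  rw [pullForm_zero, pullForm_zero]
  have h2 := extDeriv_smul (x := z) (0 : ℝ) (0 : C2 → C2 [⋀^Fin k]→L[ℝ] ℝ)
  simpa using h2

theorem isExtDerivC_zero : IsExtDerivC (0 : CForm k X) 0 := by
  intro e he z hz
  rw [pullC_zero, pullC_zero]
  have h2 := extDeriv_smul (x := z) (0 : ℝ) (0 : C2 → C2 [⋀^Fin k]→L[ℝ] ℂ)
  simpa using h2

theorem isExtDerivC_ofR {b : RForm k X} {a : RForm (k + 1) X} (hb : SmoothForm b) :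
    IsExtDerivC (ofR b) (ofR a) ↔ IsExtDeriv b a := by
  constructor
  · intro h
    have h2 := h.reC (smoothC_ofR.2 hb)
    rwa [reC_ofR, reC_ofR] at h2
  · intro h e he z hz
    rw [pullC_ofR, pullC_ofR]
    rw [extDeriv_post Complex.ofRealCLM (dd_of_smooth hb he hz), h e he z hz]

/-! ### spaces of forms -/

variable (X k) in
/-- closed smooth real forms -/
def ZR : Submodule ℝ (RForm k X) where
  carrier := {a | SmoothForm a ∧ ClosedForm a}
  zero_mem' := ⟨smoothForm_zero, isExtDeriv_zero⟩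
  add_mem' := by
    rintro a b ⟨h1, h2⟩ ⟨h3, h4⟩
    refine ⟨smoothForm_add h1 h3, ?_⟩
    have h5 := isExtDeriv_add h2 h4 h1 h3
    rwa [add_zero] at h5
  smul_mem' := by
    rintro c a ⟨h1, h2⟩
    refine ⟨smoothForm_smul h1 c, ?_⟩
    have h5 := isExtDeriv_smul h2 c
    rwa [smul_zero] at h5

variable (X k) in
/-- exact real forms -/
def BR : Submodule ℝ (RForm (k + 1) X) where
  carrier := {a | ExactForm a}
  zero_mem' := ⟨0, smoothForm_zero, isExtDeriv_zero⟩
  add_mem' := by
    rintro a b ⟨u, h1, h2⟩ ⟨v, h3, h4⟩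
    exact ⟨u + v, smoothForm_add h1 h3, isExtDeriv_add h2 h4 h1 h3⟩
  smul_mem' := by
    rintro c a ⟨u, h1, h2⟩
    exact ⟨c • u, smoothForm_smul h1 c, isExtDeriv_smul h2 c⟩

variable (X k) in
/-- closed smooth complex forms -/
def ZC : Submodule ℂ (CForm k X) where
  carrier := {a | SmoothC a ∧ IsExtDerivC a 0}
  zero_mem' := ⟨smoothC_zero, isExtDerivC_zero⟩
  add_mem' := by
    rintro a b ⟨h1, h2⟩ ⟨h3, h4⟩
    refine ⟨h1.add h3, ?_⟩
    have h5 := h2.add h4 h1 h3
    rwa [add_zero] at h5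
  smul_mem' := by
    rintro c a ⟨h1, h2⟩
    refine ⟨h1.smul c, ?_⟩
    have h5 := h2.smul h1 c
    have h6 : c • (0 : CForm (k + 1) X) = 0 := by
      funext x
      ext v
      exact mul_zero c
    rwa [h6] at h5

variable (X k) in
/-- exact complex forms -/
def BC : Submodule ℂ (CForm (k + 1) X) where
  carrier := {a | ∃ b, SmoothC b ∧ IsExtDerivC b a}
  zero_mem' := ⟨0, smoothC_zero, isExtDerivC_zero⟩
  add_mem' := by
    rintro a b ⟨u, h1, h2⟩ ⟨v, h3, h4⟩
    exact ⟨u + v, h1.add h3, h2.add h4 h1 h3⟩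
  smul_mem' := by
    rintro c a ⟨u, h1, h2⟩
    exact ⟨c • u, h1.smul c, h2.smul h1 c⟩

theorem bettiSucc_iff_isBetti (n : ℕ) : BettiSucc X k n ↔ IsBetti (ZR X (k + 1)) (BR X k) n := by
  constructor
  · rintro ⟨a, ha, h⟩
    exact ⟨a, ha, fun c hc => h c hc.1 hc.2⟩
  · rintro ⟨a, ha, h⟩
    exact ⟨a, ha, fun c h1 h2 => h c ⟨h1, h2⟩⟩

/-- `ofR` as a linear map -/
def ofRL : RForm k X →ₗ[ℝ] CForm k X where
  toFun := ofR
  map_add' a b := by
    funext x
    ext v
    exact Complex.ofReal_add _ _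
  map_smul' c a := by
    funext x
    ext v
    change ((c * a x v : ℝ) : ℂ) = c • ((a x v : ℝ) : ℂ)
    rw [Complex.ofReal_mul, Complex.real_smul]

theorem realStr : RealStr (ofRL : RForm k X →ₗ[ℝ] CForm k X) conjC where
  add u v := by
    funext x
    ext w
    exact map_add (starRingEnd ℂ) _ _
  smul c v := by
    funext x
    ext w
    exact map_mul (starRingEnd ℂ) _ _
  invol v := by
    funext x
    ext w
    exact Complex.conj_conj _
  inj := Function.LeftInverse.injective (g := reC) reC_ofR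
  fix v := by
    constructor
    · intro h
      refine ⟨reC v, ?_⟩
      funext x
      ext w
      have h2 : conj (v x w) = v x w := congrArg (fun a : CForm k X => a x w) h
      exact Complex.conj_eq_iff_re.1 h2
    · rintro ⟨w, rfl⟩
      funext x
      ext w
      exact Complex.conj_ofReal _

/-- complex Betti numbers -/
theorem bettiSucc_iff_complex (n : ℕ) : BettiSucc X k n ↔ IsBetti (ZC X (k + 1)) (BC X k) n := by
  rw [bettiSucc_iff_isBetti]
  refine isBetti_complexify realStr ?_ ?_ ?_ ?_ n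
  · rintro v ⟨h1, h2⟩
    refine ⟨h1.conjC, ?_⟩
    have h3 := h2.conjC h1
    have h4 : conjC (0 : CForm (k + 1 + 1) X) = 0 := by
      funext x
      ext w
      exact map_zero (starRingEnd ℂ)
    rwa [h4] at h3
  · rintro v ⟨u, h1, h2⟩
    exact ⟨conjC u, h1.conjC, h2.conjC h1⟩
  · intro w
    constructor
    · rintro ⟨h1, h2⟩
      have h3 : SmoothForm w := smoothC_ofR.1 h1
      refine ⟨h3, ?_⟩
      have h4 : (0 : CForm (k + 1 + 1) X) = ofR 0 := (ofRL.map_zero).symm
      rw [h4] at h2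
      exact (isExtDerivC_ofR h3).1 h2
    · rintro ⟨h1, h2⟩
      refine ⟨smoothC_ofR.2 h1, ?_⟩
      have h4 : (0 : CForm (k + 1 + 1) X) = ofR 0 := (ofRL.map_zero).symm
      rw [h4]
      exact (isExtDerivC_ofR h1).2 h2
  · intro w
    constructor
    · rintro ⟨u, h1, h2⟩
      have h3 := h2.reC h1
      refine ⟨reC u, h1.reC, ?_⟩
      have h4 : reC (ofRL w) = w := reC_ofR w
      rwa [h4] at h3
    · rintro ⟨u, h1, h2⟩
      exact ⟨ofR u, smoothC_ofR.2 h1, (isExtDerivC_ofR h1).2 h2⟩

end Vale.Agent.P267.H857
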