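import Vale.Agent.P267.Statement
import Vale.Agent.P267.H399.Calc
import Vale.Agent.P267.H857.Alg
import Vale.Agent.P267.H857.Ext

/-!
# P267 BRIDGE-ALT (3): forms by types and Mathlib's alternating forms on tangent spaces
-/

open scoped Manifold ContDiff ComplexConjugate Topology
open Set Filter Matrix

noncomputable section

namespace Vale.Agent.P267.H857

open Vale.Agent.P267.FL

/-- A (not necessarily smooth) complex `k`-form on `X`. -/
abbrev CForm (k : ℕ) (X : Type*) [TopologicalSpace X] [ChartedSpace C2 X] :=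
  ∀ x : X, TangentSpace 𝓘(ℝ, C2) x [⋀^Fin k]→L[ℝ] ℂ

variable {X : Type*} [TopologicalSpace X] [ChartedSpace C2 X]

/-- pullback -/
def pullC {k : ℕ} (f : C2 → X) (a : CForm k X) : C2 → C2 [⋀^Fin k]→L[ℝ] ℂ :=
  fun z => (a (f z)).compContinuousLinearMap (mfderiv 𝓘(ℝ, C2) 𝓘(ℝ, C2) f z)

/-- smooth form -/
def SmoothC {k : ℕ} (a : CForm k X) : Prop :=
  ∀ e ∈ atlas C2 X, ContDiffOn ℝ ∞ (pullC e.symm a) e.target

/-- `a = db` -/
def IsExtDerivC {k : ℕ} (b : CForm k X) (a : CForm (k + 1) X) : Prop :=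
  ∀ e ∈ atlas C2 X, ∀ z ∈ e.target, extDeriv (pullC e.symm b) z = pullC e.symm a z

section mf

variable [IsManifold 𝓘(ℂ, C2) ω X]

theorem mdiff_symm {e : Ch X} (he : e ∈ atlas C2 X) {z : C2} (hz : z ∈ e.target) :
    MDifferentiableAt 𝓘(ℝ, C2) 𝓘(ℝ, C2) e.symm z := by
  rw [mdifferentiableAt_iff]
  refine ⟨e.symm.continuousAt hz, ?_⟩
  have h := trans_differentiableAt he (chart_mem_atlas C2 (e.symm z)) (e.map_target hz)
    (mem_chart_source C2 (e.symm z))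
  rw [e.right_inv hz] at h
  have h2 := (h.restrictScalars ℝ).differentiableWithinAt (s := Set.range 𝓘(ℝ, C2))
  have e1 : writtenInExtChartAt 𝓘(ℝ, C2) 𝓘(ℝ, C2) z e.symm =
    fun w => chartAt C2 (e.symm z) (e.symm w) := rfl
  rw [e1]
  exact h2

theorem mfderiv_symm' {e : Ch X} (he : e ∈ atlas C2 X) {z : C2} (hz : z ∈ e.target) :
    (mfderiv 𝓘(ℝ, C2) 𝓘(ℝ, C2) e.symm z : C2 →L[ℝ] C2) =
      fderiv ℝ (fun w => chartAt C2 (e.symm z) (e.symm w)) z := by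
  have h := (mdiff_symm he hz).mfderiv
  have h2 : fderivWithin ℝ (writtenInExtChartAt 𝓘(ℝ, C2) 𝓘(ℝ, C2) z e.symm)
      (Set.range 𝓘(ℝ, C2)) (extChartAt 𝓘(ℝ, C2) z z) =
      fderiv ℝ (fun w => chartAt C2 (e.symm z) (e.symm w)) z := by
    have e1 : writtenInExtChartAt 𝓘(ℝ, C2) 𝓘(ℝ, C2) z e.symm =
      fun w => chartAt C2 (e.symm z) (e.symm w) := rfl
    have e2 : (extChartAt 𝓘(ℝ, C2) z z : C2) = z := rfl
    have e3 : (Set.range 𝓘(ℝ, C2)) = (univ : Set C2) := by simp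
    rw [e1, e2, e3, fderivWithin_univ]
  exact h.trans h2

theorem mfderiv_symm {e : Ch X} (he : e ∈ atlas C2 X) {z : C2} (hz : z ∈ e.target) :
    (mfderiv 𝓘(ℝ, C2) 𝓘(ℝ, C2) e.symm z : C2 →L[ℝ] C2) = mulL (jac e (e.symm z)) := by
  have h := trans_differentiableAt he (chart_mem_atlas C2 (e.symm z)) (e.map_target hz)
    (mem_chart_source C2 (e.symm z))
  rw [mfderiv_symm' he hz]
  ext1 v
  rw [mulL_apply]
  have h2 := jacM_mulVec he (chart_mem_atlas C2 (e.symm z)) (e.map_target hz)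
    (mem_chart_source C2 (e.symm z)) v
  rw [e.right_inv hz] at h h2
  rw [jac, h2, h.fderiv_restrictScalars ℝ]
  rfl

theorem pullC_eq {k : ℕ} {e : Ch X} (he : e ∈ atlas C2 X) (a : CForm k X) {z : C2}
    (hz : z ∈ e.target) :
    pullC e.symm a z = (show C2 [⋀^Fin k]→L[ℝ] ℂ from a (e.symm z)).compContinuousLinearMap
      (mulL (jac e (e.symm z))) :=
  congrArg (fun L : C2 →L[ℝ] C2 =>
    (show C2 [⋀^Fin k]→L[ℝ] ℂ from a (e.symm z)).compContinuousLinearMap L) (mfderiv_symm he hz)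

end mf

/-! ### the dictionary -/

/-- zero-forms -/
def ofFun (s : X → ℂ) : CForm 0 X := fun x =>
  (ContinuousAlternatingMap.constOfIsEmpty ℝ C2 (Fin 0) (s x) : C2 [⋀^Fin 0]→L[ℝ] ℂ)

/-- one-forms -/
def ofOne (A : OneF X) : CForm 1 X := fun x => (alt1 (A.f10 x) (A.f01 x) : C2 [⋀^Fin 1]→L[ℝ] ℂ)

/-- two-forms -/
def ofTwo (F : TwoF X) : CForm 2 X := fun x =>
  (alt2 (F.f20 x) (F.f11 x) (F.f02 x) : C2 [⋀^Fin 2]→L[ℝ] ℂ)

/-- three-forms, `g21 = ` coefficients of `dz_0∧dz_1∧dz̄_j`, `g12 = ` coefficients of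
`dz_i∧dz̄_0∧dz̄_1` -/
def ofThree (g21 g12 : X → Fin 2 → ℂ) : CForm 3 X := fun x =>
  (alt3 (g21 x) (g12 x) : C2 [⋀^Fin 3]→L[ℝ] ℂ)

/-- components of a one-form -/
def toOne (a : CForm 1 X) : OneF X :=
  ⟨fun x => cf10 (a x : C2 [⋀^Fin 1]→L[ℝ] ℂ), fun x => cf01 (a x : C2 [⋀^Fin 1]→L[ℝ] ℂ)⟩

/-- components of a two-form -/
def toTwo (a : CForm 2 X) : TwoF X :=
  ⟨fun x => cf20 (a x : C2 [⋀^Fin 2]→L[ℝ] ℂ), fun x => cf11 (a x : C2 [⋀^Fin 2]→L[ℝ] ℂ),
    fun x => cf02 (a x : C2 [⋀^Fin 2]→L[ℝ] ℂ)⟩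

@[simp] theorem toOne_ofOne (A : OneF X) : toOne (ofOne A) = A := by
  ext1
  · funext x; exact cf10_alt1 _ _
  · funext x; exact cf01_alt1 _ _

@[simp] theorem ofOne_toOne (a : CForm 1 X) : ofOne (toOne a) = a := by
  funext x; exact alt1_cf _

@[simp] theorem toTwo_ofTwo (A : TwoF X) : toTwo (ofTwo A) = A := by
  ext1
  · funext x; exact cf20_alt2 _ _ _
  · funext x; exact cf11_alt2 _ _ _
  · funext x; exact cf02_alt2 _ _ _

@[simp] theorem ofTwo_toTwo (a : CForm 2 X) : ofTwo (toTwo a) = a := by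
  funext x; exact alt2_cf _

section pull

variable [IsManifold 𝓘(ℂ, C2) ω X]

omit [IsManifold 𝓘(ℂ, C2) ω X] in
theorem pullC_ofFun {e : Ch X} (s : X → ℂ) (z : C2) :
    pullC e.symm (ofFun s) z =
      ContinuousAlternatingMap.constOfIsEmpty ℝ C2 (Fin 0) (loc0 0 e s z) := by
  have h : loc0 0 e s z = s (e.symm z) := by simp [loc0]
  rw [h]
  rfl

theorem pullC_ofOne {e : Ch X} (he : e ∈ atlas C2 X) (A : OneF X) {z : C2} (hz : z ∈ e.target) :
    pullC e.symm (ofOne A) z = alt1 (loc10 e A.f10 z) (loc1 0 e A.f01 z) := by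
  refine (pullC_eq he (ofOne A) hz).trans ((alt1_comp _ _ _).trans ?_)
  congr 1
  funext i
  simp [loc1]

theorem pullC_ofTwo {e : Ch X} (he : e ∈ atlas C2 X) (F : TwoF X) {z : C2} (hz : z ∈ e.target) :
    pullC e.symm (ofTwo F) z = alt2 (loc0 1 e F.f20 z) (loc11 e F.f11 z) (loc2 0 e F.f02 z) := by
  refine (pullC_eq he (ofTwo F) hz).trans ((alt2_comp _ _ _ _).trans ?_)
  congr 1
  · simp [loc0]
  · simp [loc2]

theorem pullC_ofThree {e : Ch X} (he : e ∈ atlas C2 X) (g21 g12 : X → Fin 2 → ℂ) {z : C2}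
    (hz : z ∈ e.target) :
    pullC e.symm (ofThree g21 g12) z = alt3
      (fun j => (jac e (e.symm z)).det * ∑ p, conj (jac e (e.symm z) p j) * g21 (e.symm z) p)
      (fun i => conj (jac e (e.symm z)).det * ∑ p, jac e (e.symm z) p i * g12 (e.symm z) p) :=
  (pullC_eq he (ofThree g21 g12) hz).trans (alt3_comp _ _ _)

end pull

end Vale.Agent.P267.H857
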