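import Vale.Agent.P267.H857.Bridge

/-!
# P267 BRIDGE-ALT (4): smoothness and exterior derivatives
-/

open scoped Manifold ContDiff ComplexConjugate Topology
open Set Filter Matrix

noncomputable section

namespace Vale.Agent.P267.H857

open Vale.Agent.P267.FL

variable {X : Type*} [TopologicalSpace X] [ChartedSpace C2 X] [IsManifold 𝓘(ℂ, C2) ω X]

/-! ### charts change -/

theorem mulL_mul (M N : Matrix (Fin 2) (Fin 2) ℂ) : mulL (M * N) = (mulL M).comp (mulL N) := by
  ext1 v
  rw [ContinuousLinearMap.comp_apply, mulL_apply, mulL_apply, mulL_apply, Matrix.mulVec_mulVec]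

theorem mulL_one : mulL (1 : Matrix (Fin 2) (Fin 2) ℂ) = ContinuousLinearMap.id ℝ C2 := by
  ext1 v
  simp [mulL_apply]

theorem fderiv_trans {e e' : Ch X} (he : e ∈ atlas C2 X) (he' : e' ∈ atlas C2 X) {x : X}
    (hx : x ∈ e.source) (hx' : x ∈ e'.source) :
    fderiv ℝ (fun z => e' (e.symm z)) (e x) = mulL (jacM e e' x) := by
  ext1 v
  rw [mulL_apply, jacM_mulVec he he' hx hx',
    (trans_differentiableAt he he' hx hx').fderiv_restrictScalars ℝ]
  rfl

theorem pullC_eq' {k : ℕ} {e : Ch X} (he : e ∈ atlas C2 X) (a : CForm k X) {x : X}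
    (hx : x ∈ e.source) :
    pullC e.symm a (e x) = (show C2 [⋀^Fin k]→L[ℝ] ℂ from a x).compContinuousLinearMap
      (mulL (jac e x)) := by
  rw [pullC_eq he a (e.map_source hx), e.left_inv hx]

theorem pullC_chartAt {k : ℕ} (a : CForm k X) (x : X) :
    pullC (chartAt C2 x).symm a (chartAt C2 x x) = (show C2 [⋀^Fin k]→L[ℝ] ℂ from a x) := by
  rw [pullC_eq' (chart_mem_atlas C2 x) a (mem_chart_source C2 x), jac_chartAt, mulL_one]
  rfl

theorem pullC_change {k : ℕ} {e e' : Ch X} (he : e ∈ atlas C2 X) (he' : e' ∈ atlas C2 X)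
    (a : CForm k X) {x : X} (hx : x ∈ e.source) (hx' : x ∈ e'.source) :
    pullC e.symm a (e x) = (pullC e'.symm a (e' x)).compContinuousLinearMap
      (fderiv ℝ (fun z => e' (e.symm z)) (e x)) := by
  rw [pullC_eq' he a hx, pullC_eq' he' a hx', fderiv_trans he he' hx hx', jac_eq he he' hx hx',
    mulL_mul]
  rfl

theorem pullC_change_eventually {k : ℕ} {e e' : Ch X} (he : e ∈ atlas C2 X)
    (he' : e' ∈ atlas C2 X) (a : CForm k X) {x : X} (hx : x ∈ e.source) (hx' : x ∈ e'.source) :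
    pullC e.symm a =ᶠ[𝓝 (e x)] fun z => (pullC e'.symm a (e' (e.symm z))).compContinuousLinearMap
      (fderiv ℝ (fun z => e' (e.symm z)) z) := by
  filter_upwards [(isOpen_trans e e').mem_nhds (mem_trans hx hx')] with z hz
  have h := pullC_change he he' a (e.map_target hz.1) hz.2
  rwa [e.right_inv hz.1] at h

theorem extDeriv_change {k : ℕ} {e e' : Ch X} (he : e ∈ atlas C2 X) (he' : e' ∈ atlas C2 X)
    (a : CForm k X) {x : X} (hx : x ∈ e.source) (hx' : x ∈ e'.source)
    (h : DifferentiableAt ℝ (pullC e'.symm a) (e' x)) :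
    extDeriv (pullC e.symm a) (e x) = (extDeriv (pullC e'.symm a) (e' x)).compContinuousLinearMap
      (fderiv ℝ (fun z => e' (e.symm z)) (e x)) := by
  rw [(pullC_change_eventually he he' a hx hx').extDeriv_eq]
  have hx2 : e' (e.symm (e x)) = e' x := by rw [e.left_inv hx]
  have ht : ContDiffAt ℝ ω (fun z => e' (e.symm z)) (e x) :=
    ((trans_analyticAt he he' hx hx').restrictScalars (𝕜 := ℝ)).contDiffAt
  rw [← hx2] at h
  refine (extDeriv_pullback (f := fun z => e' (e.symm z)) (x := e x)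
    (r := ω) h ht le_top).trans ?_
  rw [hx2]

/-- `C^1` forms -/
def DiffC {k : ℕ} (a : CForm k X) : Prop :=
  ∀ e ∈ atlas C2 X, ∀ z ∈ e.target, DifferentiableAt ℝ (pullC e.symm a) z

omit [IsManifold 𝓘(ℂ, C2) ω X] in
theorem SmoothC.contDiffAt {k : ℕ} {a : CForm k X} (h : SmoothC a) {e : Ch X}
    (he : e ∈ atlas C2 X) {z : C2} (hz : z ∈ e.target) : ContDiffAt ℝ ∞ (pullC e.symm a) z :=
  (h e he).contDiffAt (e.open_target.mem_nhds hz)

omit [IsManifold 𝓘(ℂ, C2) ω X] in
theorem SmoothC.diff {k : ℕ} {a : CForm k X} (h : SmoothC a) : DiffC a :=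
  fun _ he _ hz => (h.contDiffAt he hz).differentiableAt (by simp)

/-- the exterior derivative, computed in the preferred charts -/
def dC {k : ℕ} (a : CForm k X) : CForm (k + 1) X := fun x =>
  (extDeriv (pullC (chartAt C2 x).symm a) (chartAt C2 x x) : C2 [⋀^Fin (k + 1)]→L[ℝ] ℂ)

theorem isExtDerivC_dC {k : ℕ} {a : CForm k X} (h : DiffC a) : IsExtDerivC a (dC a) := by
  intro e he z hz
  obtain ⟨x, hx, rfl⟩ : ∃ x ∈ e.source, e x = z := ⟨e.symm z, e.map_target hz, e.right_inv hz⟩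
  rw [extDeriv_change he (chart_mem_atlas C2 x) a hx (mem_chart_source C2 x)
    (h _ (chart_mem_atlas C2 x) _ (mem_chart_target C2 x)), pullC_eq' he _ hx,
    fderiv_trans he (chart_mem_atlas C2 x) hx (mem_chart_source C2 x)]
  rfl

theorem isExtDerivC_iff {k : ℕ} {b : CForm k X} {a : CForm (k + 1) X} (h : DiffC b) :
    IsExtDerivC b a ↔ a = dC b := by
  constructor
  · intro h2
    funext x
    have h3 := h2 _ (chart_mem_atlas C2 x) _ (mem_chart_target C2 x)
    rw [pullC_chartAt] at h3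
    exact h3.symm
  · rintro rfl
    exact isExtDerivC_dC h

theorem smoothC_dC {k : ℕ} {a : CForm k X} (h : SmoothC a) : SmoothC (dC a) := by
  intro e he z hz
  refine ContDiffAt.contDiffWithinAt ?_
  have h2 : ContDiffAt ℝ ∞ (extDeriv (pullC e.symm a)) z := by
    unfold extDeriv
    exact (ContinuousAlternatingMap.alternatizeUncurryFinCLM ℝ C2 ℂ (n := k)).contDiff.contDiffAt.comp
      z ((h.contDiffAt he hz).fderiv_right (m := ∞) le_rfl)
  refine h2.congr_of_eventuallyEq ?_
  filter_upwards [e.open_target.mem_nhds hz] with y hy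
  exact (isExtDerivC_dC h.diff e he y hy).symm

omit [IsManifold 𝓘(ℂ, C2) ω X] in
theorem two_le_inf : (2 : WithTop ℕ∞) ≤ ∞ :=
  show ((2 : ℕ∞) : WithTop ℕ∞) ≤ ((⊤ : ℕ∞) : WithTop ℕ∞) from WithTop.coe_le_coe.2 le_top

theorem dC_dC {k : ℕ} {a : CForm k X} (h : SmoothC a) : dC (dC a) = 0 := by
  funext x
  have h2 : pullC (chartAt C2 x).symm (dC a) =ᶠ[𝓝 (chartAt C2 x x)]
      extDeriv (pullC (chartAt C2 x).symm a) := by
    filter_upwards [(chartAt C2 x).open_target.mem_nhds (mem_chart_target C2 x)] with y hy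
    exact (isExtDerivC_dC h.diff _ (chart_mem_atlas C2 x) y hy).symm
  refine h2.extDeriv_eq.trans ?_
  exact extDeriv_extDeriv_apply (r := ∞) (h.contDiffAt (chart_mem_atlas C2 x)
    (mem_chart_target C2 x)) (by
      rw [minSmoothness_of_isRCLikeNormedField]; exact two_le_inf)

end Vale.Agent.P267.H857
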