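import Vale.Agent.P267.H857.Bridge2

/-!
# P267 BRIDGE-ALT (5): the dictionary for smoothness and exterior derivatives
-/

open scoped Manifold ContDiff ComplexConjugate Topology
open Set Filter Matrix

noncomputable section

namespace Vale.Agent.P267.H857

open Vale.Agent.P267.FL

variable {X : Type*} [TopologicalSpace X] [ChartedSpace C2 X] [IsManifold 𝓘(ℂ, C2) ω X]

/-! ### smoothness -/

omit [IsManifold 𝓘(ℂ, C2) ω X] in
theorem pullC_ofFun_ev {e : Ch X} (s : X → ℂ) :
    pullC e.symm (ofFun s) =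
      fun z => ContinuousAlternatingMap.constOfIsEmpty ℝ C2 (Fin 0) (loc0 0 e s z) :=
  funext fun z => pullC_ofFun s z

theorem pullC_ofOne_ev {e : Ch X} (he : e ∈ atlas C2 X) (A : OneF X) {z : C2} (hz : z ∈ e.target) :
    pullC e.symm (ofOne A) =ᶠ[𝓝 z] fun z => alt1 (loc10 e A.f10 z) (loc1 0 e A.f01 z) := by
  filter_upwards [e.open_target.mem_nhds hz] with y hy
  exact pullC_ofOne he A hy

theorem pullC_ofTwo_ev {e : Ch X} (he : e ∈ atlas C2 X) (F : TwoF X) {z : C2} (hz : z ∈ e.target) :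
    pullC e.symm (ofTwo F) =ᶠ[𝓝 z] fun z =>
      alt2 (loc0 1 e F.f20 z) (loc11 e F.f11 z) (loc2 0 e F.f02 z) := by
  filter_upwards [e.open_target.mem_nhds hz] with y hy
  exact pullC_ofTwo he F hy

/-- the value of a zero-form -/
theorem contDiffAt_ofEmpty {n : WithTop ℕ∞} {f : C2 → ℂ} {x : C2} :
    ContDiffAt ℝ n (fun z => ContinuousAlternatingMap.constOfIsEmpty ℝ C2 (Fin 0) (f z)) x ↔
      ContDiffAt ℝ n f x := by
  constructor
  · intro h
    exact contDiffAt_eval h ![]
  · intro h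
    exact (ContinuousAlternatingMap.constOfIsEmptyLIE ℝ C2 ℂ (Fin 0)).contDiff.contDiffAt.comp x h

omit [IsManifold 𝓘(ℂ, C2) ω X] in
theorem smoothC_ofFun {s : X → ℂ} : SmoothC (ofFun s) ↔ Reg0 ∞ 0 s := by
  refine forall₂_congr fun e he => forall₂_congr fun z hz => ?_
  have h1 : ∀ {E : Type} [NormedAddCommGroup E] [NormedSpace ℝ E] (f : C2 → E),
      ContDiffWithinAt ℝ ∞ f e.target z ↔ ContDiffAt ℝ ∞ f z := fun f =>
    ⟨fun h => h.contDiffAt (e.open_target.mem_nhds hz), fun h => h.contDiffWithinAt⟩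
  rw [h1, h1, pullC_ofFun_ev, contDiffAt_ofEmpty]

theorem smoothC_ofOne {A : OneF X} : SmoothC (ofOne A) ↔ A.Smooth := by
  constructor
  · intro h
    constructor
    · intro e he z hz
      refine ContDiffAt.contDiffWithinAt ?_
      have h2 := h.contDiffAt he hz
      rw [contDiffAt_pi]
      intro i
      refine (contDiffAt_cf10 h2 i).congr_of_eventuallyEq ?_
      filter_upwards [e.open_target.mem_nhds hz] with y hy
      rw [pullC_ofOne he A hy, cf10_alt1]
    · intro e he z hz
      refine ContDiffAt.contDiffWithinAt ?_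
      have h2 := h.contDiffAt he hz
      rw [contDiffAt_pi]
      intro i
      refine (contDiffAt_cf01 h2 i).congr_of_eventuallyEq ?_
      filter_upwards [e.open_target.mem_nhds hz] with y hy
      rw [pullC_ofOne he A hy, cf01_alt1]
  · intro h e he z hz
    refine ContDiffAt.contDiffWithinAt ?_
    refine ContDiffAt.congr_of_eventuallyEq ?_ (pullC_ofOne_ev he A hz)
    have h1 := (h.s10 e he).contDiffAt (e.open_target.mem_nhds hz)
    have h2 := (h.s01 e he).contDiffAt (e.open_target.mem_nhds hz)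
    rw [contDiffAt_pi] at h1 h2
    exact contDiffAt_alt1 h1 h2

theorem smoothC_ofTwo {F : TwoF X} : SmoothC (ofTwo F) ↔ F.Smooth := by
  constructor
  · intro h
    constructor
    · intro e he z hz
      refine ContDiffAt.contDiffWithinAt ?_
      refine (contDiffAt_cf20 (h.contDiffAt he hz)).congr_of_eventuallyEq ?_
      filter_upwards [e.open_target.mem_nhds hz] with y hy
      rw [pullC_ofTwo he F hy, cf20_alt2]
    · intro e he i j z hz
      refine ContDiffAt.contDiffWithinAt ?_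
      refine (contDiffAt_cf11 (h.contDiffAt he hz) i j).congr_of_eventuallyEq ?_
      filter_upwards [e.open_target.mem_nhds hz] with y hy
      rw [pullC_ofTwo he F hy, cf11_alt2]
    · intro e he z hz
      refine ContDiffAt.contDiffWithinAt ?_
      refine (contDiffAt_cf02 (h.contDiffAt he hz)).congr_of_eventuallyEq ?_
      filter_upwards [e.open_target.mem_nhds hz] with y hy
      rw [pullC_ofTwo he F hy, cf02_alt2]
  · intro h e he z hz
    refine ContDiffAt.contDiffWithinAt ?_
    refine ContDiffAt.congr_of_eventuallyEq ?_ (pullC_ofTwo_ev he F hz)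
    exact contDiffAt_alt2 ((h.s20 e he).contDiffAt (e.open_target.mem_nhds hz))
      (fun i j => (h.s11 e he i j).contDiffAt (e.open_target.mem_nhds hz))
      ((h.s02 e he).contDiffAt (e.open_target.mem_nhds hz))

/-! ### exterior derivatives -/

omit [IsManifold 𝓘(ℂ, C2) ω X] in
/-- the exterior derivative of a function, in any chart -/
theorem extDeriv_pullC_ofFun {e : Ch X} (s : X → ℂ) (z : C2) :
    extDeriv (pullC e.symm (ofFun s)) z =
      alt1 (fun i => dz i (loc0 0 e s) z) (fun i => dzb i (loc0 0 e s) z) := by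
  rw [pullC_ofFun_ev, extDeriv_fun]

theorem extDeriv_pullC_ofOne {e : Ch X} (he : e ∈ atlas C2 X) (A : OneF X) {z : C2}
    (hz : z ∈ e.target) (h1 : DifferentiableAt ℝ (loc10 e A.f10) z)
    (h2 : DifferentiableAt ℝ (loc1 0 e A.f01) z) :
    extDeriv (pullC e.symm (ofOne A)) z =
      alt2 (dz 0 (fun z => loc10 e A.f10 z 1) z - dz 1 (fun z => loc10 e A.f10 z 0) z)
        (Matrix.of fun i j => dz i (fun z => loc1 0 e A.f01 z j) z -
          dzb j (fun z => loc10 e A.f10 z i) z)
        (dzb 0 (fun z => loc1 0 e A.f01 z 1) z - dzb 1 (fun z => loc1 0 e A.f01 z 0) z) := by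
  rw [(pullC_ofOne_ev he A hz).extDeriv_eq]
  rw [differentiableAt_pi] at h1 h2
  exact extDeriv_alt1 h1 h2

theorem extDeriv_pullC_ofTwo {e : Ch X} (he : e ∈ atlas C2 X) (F : TwoF X) {z : C2}
    (hz : z ∈ e.target) (h20 : DifferentiableAt ℝ (loc0 1 e F.f20) z)
    (h11 : ∀ i j, DifferentiableAt ℝ (fun z => loc11 e F.f11 z i j) z)
    (h02 : DifferentiableAt ℝ (loc2 0 e F.f02) z) :
    extDeriv (pullC e.symm (ofTwo F)) z =
      alt3 (fun j => dzb j (loc0 1 e F.f20) z + (dz 0 (fun z => loc11 e F.f11 z 1 j) z -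
        dz 1 (fun z => loc11 e F.f11 z 0 j) z))
        (fun i => dz i (loc2 0 e F.f02) z - (dzb 0 (fun z => loc11 e F.f11 z i 1) z -
          dzb 1 (fun z => loc11 e F.f11 z i 0) z)) := by
  rw [(pullC_ofTwo_ev he F hz).extDeriv_eq]
  exact extDeriv_alt2 h20 h11 h02

omit [IsManifold 𝓘(ℂ, C2) ω X] in
theorem dC_ofFun (s : X → ℂ) : dC (ofFun s) = ofOne (dF0 s) := by
  funext x
  refine (extDeriv_pullC_ofFun s _).trans ?_
  have h : loc0 0 (chartAt C2 x) s = fun z => s ((chartAt C2 x).symm z) := by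
    funext z
    simp [loc0]
  change _ = alt1 (del0 s x) (dbar0 0 s x)
  congr 1
  funext i
  rw [h]
  rfl

/-- differentiable one-forms -/
def Diff1 (A : OneF X) : Prop := ∀ e ∈ atlas C2 X, ∀ z ∈ e.target,
  DifferentiableAt ℝ (loc10 e A.f10) z ∧ DifferentiableAt ℝ (loc1 0 e A.f01) z

/-- differentiable two-forms -/
def Diff2 (F : TwoF X) : Prop := ∀ e ∈ atlas C2 X, ∀ z ∈ e.target,
  DifferentiableAt ℝ (loc0 1 e F.f20) z ∧ (∀ i j, DifferentiableAt ℝ (fun z => loc11 e F.f11 z i j) z)
    ∧ DifferentiableAt ℝ (loc2 0 e F.f02) z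

omit [IsManifold 𝓘(ℂ, C2) ω X] in
theorem diff1_of_smooth {A : OneF X} (h : A.Smooth) : Diff1 A := fun e he z hz =>
  ⟨((h.s10 e he).contDiffAt (e.open_target.mem_nhds hz)).differentiableAt (by simp),
    ((h.s01 e he).contDiffAt (e.open_target.mem_nhds hz)).differentiableAt (by simp)⟩

omit [IsManifold 𝓘(ℂ, C2) ω X] in
theorem diff2_of_smooth {F : TwoF X} (h : F.Smooth) : Diff2 F := fun e he z hz =>
  ⟨((h.s20 e he).contDiffAt (e.open_target.mem_nhds hz)).differentiableAt (by simp),
    fun i j => ((h.s11 e he i j).contDiffAt (e.open_target.mem_nhds hz)).differentiableAt (by simp),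
    ((h.s02 e he).contDiffAt (e.open_target.mem_nhds hz)).differentiableAt (by simp)⟩

theorem diffC_ofOne {A : OneF X} (h : Diff1 A) : DiffC (ofOne A) := by
  intro e he z hz
  obtain ⟨h1, h2⟩ := h e he z hz
  rw [differentiableAt_pi] at h1 h2
  refine DifferentiableAt.congr_of_eventuallyEq ?_ (pullC_ofOne_ev he A hz)
  unfold alt1
  exact (DifferentiableAt.fun_sum fun i _ => (h1 i).smul (differentiableAt_const _)).add
    (DifferentiableAt.fun_sum fun i _ => (h2 i).smul (differentiableAt_const _))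

theorem diffC_ofTwo {F : TwoF X} (h : Diff2 F) : DiffC (ofTwo F) := by
  intro e he z hz
  obtain ⟨h20, h11, h02⟩ := h e he z hz
  refine DifferentiableAt.congr_of_eventuallyEq ?_ (pullC_ofTwo_ev he F hz)
  unfold alt2
  exact ((h20.smul (differentiableAt_const _)).add (DifferentiableAt.fun_sum fun i _ =>
    DifferentiableAt.fun_sum fun j _ => (h11 i j).smul (differentiableAt_const _))).add
      (h02.smul (differentiableAt_const _))

theorem dC_ofOne {A : OneF X} (h : Diff1 A) : dC (ofOne A) = ofTwo A.d := by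
  funext x
  obtain ⟨h1, h2⟩ := h _ (chart_mem_atlas C2 x) _ (mem_chart_target C2 x)
  refine (extDeriv_pullC_ofOne (chart_mem_atlas C2 x) A (mem_chart_target C2 x) h1 h2).trans ?_
  change _ = alt2 (del10 A.f10 x) ((del1 A.f01 + dbar10 A.f10) x) (dbar1 0 A.f01 x)
  congr 1

theorem dC_ofTwo {F : TwoF X} (h : Diff2 F) : dC (ofTwo F) = ofThree F.d21 F.d12 := by
  funext x
  obtain ⟨h20, h11, h02⟩ := h _ (chart_mem_atlas C2 x) _ (mem_chart_target C2 x)
  exact (extDeriv_pullC_ofTwo (chart_mem_atlas C2 x) F (mem_chart_target C2 x) h20 h11 h02)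

omit [IsManifold 𝓘(ℂ, C2) ω X] in
theorem ofOne_injective : Function.Injective (ofOne : OneF X → CForm 1 X) :=
  Function.LeftInverse.injective toOne_ofOne

omit [IsManifold 𝓘(ℂ, C2) ω X] in
theorem ofTwo_injective : Function.Injective (ofTwo : TwoF X → CForm 2 X) :=
  Function.LeftInverse.injective toTwo_ofTwo

theorem isExtDerivC_ofFun {s : X → ℂ} (hs : Reg0 ∞ 0 s) {A : OneF X} :
    IsExtDerivC (ofFun s) (ofOne A) ↔ A = dF0 s := by
  rw [isExtDerivC_iff (smoothC_ofFun.2 hs).diff, dC_ofFun]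
  exact ofOne_injective.eq_iff

theorem isExtDerivC_ofOne {A : OneF X} (hA : A.Smooth) {F : TwoF X} :
    IsExtDerivC (ofOne A) (ofTwo F) ↔ F = A.d := by
  rw [isExtDerivC_iff (smoothC_ofOne.2 hA).diff, dC_ofOne (diff1_of_smooth hA)]
  exact ofTwo_injective.eq_iff

end Vale.Agent.P267.H857
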